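import Vale.Agent.P281.Jac

/-! A manifold that dominates a canonically polarised manifold of the same dimension is of general
type, also after adding an effective divisor. -/

open Set Filter Topology
open scoped Manifold ContDiff

noncomputable section

namespace Vale.Agent.P281

open Vale.Agent.P271 Vale.Agent.P271.Stmt

theorem exists_indep {d M : ℕ} (A : Fin M → (Fin d → ℂ) →ₗ[ℂ] ℂ)
    (h : ∀ v, (∀ k, A k v = 0) → v = 0) :
    ∃ e : Fin d → Fin M, LinearIndependent ℂ fun j => A (e j) := by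
  obtain ⟨κ, a, ha, h1, h2⟩ := exists_linearIndependent' ℂ A
  have h3 : ⊤ ≤ Submodule.span ℂ (range (A ∘ a)) := by
    rw [h1]
    refine fun K _ => mem_span_of_iInf_ker_le_ker fun v hv => ?_
    rw [h v fun k => (Submodule.mem_iInf _).1 hv k]
    exact zero_mem _
  have := Finite.of_injective a ha
  have h4 := Module.finrank_eq_nat_card_basis (Module.Basis.mk h2 h3)
  rw [Module.finrank_linearMap_self, Module.finrank_fin_fun] at h4
  exact ⟨a ∘ (Finite.equivFinOfCardEq h4.symm).symm,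
    h2.comp _ (Finite.equivFinOfCardEq h4.symm).symm.injective⟩

section

variable {n m : ℕ} {X Z : Type} [TopologicalSpace X] [ChartedSpace (Fin n → ℂ) X]
  [TopologicalSpace Z] [ChartedSpace (Fin m → ℂ) Z]

theorem diff_ratio {u t : X → ℂ} {p : X} (hu : MDifferentiableAt 𝓘(ℂ, Fin n → ℂ) 𝓘(ℂ, ℂ) u p)
    (ht : MDifferentiableAt 𝓘(ℂ, Fin n → ℂ) 𝓘(ℂ, ℂ) t p) (h0 : t p ≠ 0) (v : Fin n → ℂ) :
    diff n u p v = u p / t p * diff n t p v + t p * diff n (fun x => u x / t x) p v := by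
  have h1 : MDifferentiableAt 𝓘(ℂ, Fin n → ℂ) 𝓘(ℂ, ℂ) (fun x => u x / t x) p := by
    simp only [div_eq_mul_inv]
    exact hu.mul ((differentiableAt_inv h0).comp_mdifferentiableAt ht)
  have h2 := (h1.hasMFDerivAt.mul ht.hasMFDerivAt).congr_of_eventuallyEq (f₁ := u) (by
    filter_upwards [ht.continuousAt.eventually_ne h0] with x hx
    exact (div_mul_cancel₀ _ hx).symm)
  rw [diff, h2.mfderiv]
  rfl

/-- The ratios of the sections of a very ample bundle, composed with a map `g`, have differentials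
whose common kernel is the kernel of the differential of `g`. -/
theorem ratio_ker {g : X → Z} (hg : MDifferentiable 𝓘(ℂ, Fin n → ℂ) 𝓘(ℂ, Fin m → ℂ) g) {M : ℕ}
    {s : Fin M → Z → ℂ} {p : X} (hs : ∀ k, MDifferentiableAt 𝓘(ℂ, Fin m → ℂ) 𝓘(ℂ, ℂ) (s k) (g p))
    (h1 : ∀ w, w ≠ 0 → ∃ k l, s k (g p) * diff m (s l) (g p) w ≠ s l (g p) * diff m (s k) (g p) w)
    {k0 : Fin M} (h0 : s k0 (g p) ≠ 0) {v : Fin n → ℂ}
    (hv : ∀ k, diff n (fun x => s k (g x) / s k0 (g x)) p v = 0) :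
    mfderiv 𝓘(ℂ, Fin n → ℂ) 𝓘(ℂ, Fin m → ℂ) g p v = 0 := by
  by_contra hw
  obtain ⟨k, l, h2⟩ := h1 _ hw
  have h3 : ∀ k, diff n (s k ∘ g) p v =
      diff m (s k) (g p) (mfderiv 𝓘(ℂ, Fin n → ℂ) 𝓘(ℂ, Fin m → ℂ) g p v) := fun k => by
    rw [diff, mfderiv_comp p (hs k) (hg p)]
    rfl
  have h4 : ∀ k, diff n (s k ∘ g) p v = s k (g p) / s k0 (g p) * diff n (s k0 ∘ g) p v := fun k => by
    have := diff_ratio ((hs k).comp p (hg p)) ((hs k0).comp p (hg p)) h0 v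
    simp only [Function.comp_apply] at this
    rw [this, hv k, mul_zero, add_zero]
  rw [← h3, ← h3, h4 k, h4 l] at h2
  exact h2 (by ring)

theorem dim_add {k : ℕ} {F : Type} [TopologicalSpace F] [ChartedSpace (Fin k → ℂ) F] {f : X → Z}
    (hf : MDifferentiable 𝓘(ℂ, Fin n → ℂ) 𝓘(ℂ, Fin m → ℂ) f) {j : F → X}
    (hj : MDifferentiable 𝓘(ℂ, Fin k → ℂ) 𝓘(ℂ, Fin n → ℂ) j) {y : Z} (h0 : ∀ q, f (j q) = y)
    {p : F} (h1 : Function.Surjective (mfderiv 𝓘(ℂ, Fin n → ℂ) 𝓘(ℂ, Fin m → ℂ) f (j p)))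
    (h2 : Function.Injective (mfderiv 𝓘(ℂ, Fin k → ℂ) 𝓘(ℂ, Fin n → ℂ) j p)) : k + m ≤ n := by
  let A : (Fin n → ℂ) →L[ℂ] Fin m → ℂ := mfderiv 𝓘(ℂ, Fin n → ℂ) 𝓘(ℂ, Fin m → ℂ) f (j p)
  let B : (Fin k → ℂ) →L[ℂ] Fin n → ℂ := mfderiv 𝓘(ℂ, Fin k → ℂ) 𝓘(ℂ, Fin n → ℂ) j p
  have h3 : A.comp B = 0 := by
    have h4 := mfderiv_comp p (hf (j p)) (hj p)
    rw [show f ∘ j = fun _ => y from funext h0, mfderiv_const] at h4
    exact h4.symm
  have h4 := LinearMap.finrank_range_add_finrank_ker A.toLinearMap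
  rw [(LinearMap.range_eq_top (f := A.toLinearMap)).2 h1, finrank_top, Module.finrank_fin_fun,
    Module.finrank_fin_fun] at h4
  have h5 : B.toLinearMap.range ≤ A.toLinearMap.ker := by
    rintro _ ⟨v, rfl⟩
    exact DFunLike.congr_fun h3 v
  have h6 := Submodule.finrank_mono h5
  rw [LinearMap.finrank_range_of_inj (f := B.toLinearMap) h2, Module.finrank_fin_fun] at h6
  omega

end

variable {n : ℕ} {X Z : Type} [TopologicalSpace X] [ChartedSpace (Fin n → ℂ) X]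
  [TopologicalSpace Z] [ChartedSpace (Fin n → ℂ) Z]
  [IsManifold 𝓘(ℂ, Fin n → ℂ) ω X] [IsManifold 𝓘(ℂ, Fin n → ℂ) ω Z] {g : X → Z}

omit [IsManifold 𝓘(ℂ, Fin n → ℂ) ω X] [IsManifold 𝓘(ℂ, Fin n → ℂ) ω Z] in
theorem jac_ne_iff (hg : MDifferentiable 𝓘(ℂ, Fin n → ℂ) 𝓘(ℂ, Fin n → ℂ) g) (p : X) :
    jac n g p (g p) p ≠ 0 ↔
      Function.Injective (mfderiv 𝓘(ℂ, Fin n → ℂ) 𝓘(ℂ, Fin n → ℂ) g p) := by
  rw [← loc_self hg p, jac, ContinuousLinearMap.det, Ne, LinearMap.det_eq_zero_iff_ker_ne_bot,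
    not_not, LinearMap.ker_eq_bot]
  rfl

theorem exists_core (hg : MDifferentiable 𝓘(ℂ, Fin n → ℂ) 𝓘(ℂ, Fin n → ℂ) g) {x : X}
    (hx : Function.Injective (mfderiv 𝓘(ℂ, Fin n → ℂ) 𝓘(ℂ, Fin n → ℂ) g x))
    (hA : Ample n (canonical n Z)) {S : Set X} (hS : Dense S) :
    ∃ (l : ℕ) (t : X → X → ℂ) (s : Fin n → X → X → ℂ), 0 < l ∧
      IsSection n (power (canonical n X) l) t ∧ (∀ k, IsSection n (power (canonical n X) l) (s k)) ∧
      ∃ p ∈ S, t p p ≠ 0 ∧ LinearIndependent ℂ fun k => diff n (fun q => s k p q / t p q) p := by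
  obtain ⟨l, hl, M, s, hs, h0, -, h1⟩ := hA
  have ha := mem_chart_source (Fin n → ℂ) x
  have hb := mem_chart_source (Fin n → ℂ) (g x)
  have e1 : ∀ᶠ y in 𝓝 x, jac n g x (g x) y ≠ 0 := by
    have h2 := (jac_analytic hg ha hb).continuousAt.eventually_ne (y := 0) (by
      rw [Function.comp_apply, (chartAt (Fin n → ℂ) x).left_inv ha]
      exact (jac_ne_iff hg x).2 hx)
    filter_upwards [((chartAt (Fin n → ℂ) x).continuousAt ha).eventually h2,
      (chartAt (Fin n → ℂ) x).open_source.mem_nhds ha] with y h3 h4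
    rwa [Function.comp_apply, (chartAt (Fin n → ℂ) x).left_inv h4] at h3
  obtain ⟨p, hp, h2, h3, h4⟩ := hS.inter_nhds_nonempty (e1.and
    (((chartAt (Fin n → ℂ) x).open_source.eventually_mem ha).and
    (hg.continuous.continuousAt.eventually ((chartAt (Fin n → ℂ) (g x)).open_source.mem_nhds hb))))
  have ha' := mem_chart_source (Fin n → ℂ) p
  have hb' := mem_chart_source (Fin n → ℂ) (g p)
  rw [jac_left hg h3 ha' h4, jac_right hg ha' hb' h4] at h2
  have h5 := right_ne_zero_of_mul (right_ne_zero_of_mul h2)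
  obtain ⟨k0, hk0⟩ := h0 (g p) (g p) hb'
  have h6 : ∀ k, MDifferentiableAt 𝓘(ℂ, Fin n → ℂ) 𝓘(ℂ, ℂ) (s k (g p)) (g p) := fun k =>
    ((hs k).1 (g p) (g p) hb').mdifferentiableAt
      ((chartAt (Fin n → ℂ) (g p)).open_source.mem_nhds hb')
  let A : Fin M → (Fin n → ℂ) →L[ℂ] ℂ := fun k => mfderiv 𝓘(ℂ, Fin n → ℂ) 𝓘(ℂ, ℂ)
    (fun y => s k (g p) (g y) / s k0 (g p) (g y)) p
  obtain ⟨e, he⟩ := exists_indep (fun k => (A k).toLinearMap) fun v hv =>
    (injective_iff_map_eq_zero _).1 ((jac_ne_iff hg p).1 h5) v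
      (ratio_ker hg h6 (h1 (g p) (g p) hb') hk0 hv)
  refine ⟨l, pull n g l (s k0), fun k => pull n g l (s (e k)), hl, pull_section hg (hs k0),
    fun k => pull_section hg (hs _), p, hp, mul_ne_zero hk0 (pow_ne_zero _ h5), ?_⟩
  have h7 := he.map' (LinearMap.ltoFun ℂ (Fin n → ℂ) ℂ ℂ)
    (LinearMap.ker_eq_bot.2 DFunLike.coe_injective)
  have h8 : ∀ k, (fun q => pull n g l (s k) p q / pull n g l (s k0) p q) =ᶠ[𝓝 p]
      fun y => s k (g p) (g y) / s k0 (g p) (g y) := fun k => by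
    have h9 := (jac_analytic hg ha' hb').continuousAt.eventually_ne (y := 0) (by
      rwa [Function.comp_apply, (chartAt (Fin n → ℂ) p).left_inv ha'])
    filter_upwards [((chartAt (Fin n → ℂ) p).continuousAt ha').eventually h9,
      (chartAt (Fin n → ℂ) p).open_source.mem_nhds ha', hg.continuous.continuousAt.eventually
      ((chartAt (Fin n → ℂ) (g p)).open_source.mem_nhds hb')] with y a1 a2 a3
    rw [Function.comp_apply, (chartAt (Fin n → ℂ) p).left_inv a2] at a1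
    rw [pull_eq hg (hs k) a2 a3, pull_eq hg (hs k0) a2 a3, mul_div_mul_right _ _ (pow_ne_zero _ a1)]
  have h9 : (fun k => diff n (fun q => pull n g l (s (e k)) p q / pull n g l (s k0) p q) p) =
      fun k => diff n (fun y => s (e k) (g p) (g y) / s k0 (g p) (g y)) p :=
    funext fun k => funext fun v => by rw [diff, (h8 _).mfderiv_eq]; rfl
  rw [h9]
  exact h7

theorem kappa_canonical (hg : MDifferentiable 𝓘(ℂ, Fin n → ℂ) 𝓘(ℂ, Fin n → ℂ) g) {x : X}
    (hx : Function.Injective (mfderiv 𝓘(ℂ, Fin n → ℂ) 𝓘(ℂ, Fin n → ℂ) g x))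
    (hA : Ample n (canonical n Z)) : kappa n (canonical n X) = ((n : ℕ∞) : WithBot ℕ∞) := by
  obtain ⟨l, t, s, hl, ht, hs, p, -, h1, h2⟩ := exists_core hg hx hA dense_univ
  exact le_antisymm (kappa_le _)
    (le_kappa hl ⟨t, s, ht, hs, p, p, mem_chart_source (Fin n → ℂ) p, h1, h2⟩)

theorem kappa_pair [ConnectedSpace X] (hg : MDifferentiable 𝓘(ℂ, Fin n → ℂ) 𝓘(ℂ, Fin n → ℂ) g)
    {x : X} (hx : Function.Injective (mfderiv 𝓘(ℂ, Fin n → ℂ) 𝓘(ℂ, Fin n → ℂ) g x))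
    (hA : Ample n (canonical n Z)) {N : ℕ} (hN : 0 < N) {D : Cocycle X} (hD : IsLineBundle n D)
    {σ : D.ι → X → ℂ} (hσ : IsSection n D σ) (h0 : ∃ i, ∃ p ∈ D.U i, σ i p ≠ 0) :
    kappa n (tensor (power (canonical n X) N) D) = ((n : ℕ∞) : WithBot ℕ∞) := by
  obtain ⟨l, t, s, hl, ht, hs, p, ⟨i, hi, h3⟩, h1, h2⟩ := exists_core hg hx hA (dense_ne hD hσ h0)
  obtain ⟨N, rfl⟩ := Nat.exists_eq_succ_of_ne_zero hN.ne'
  have ha := mem_chart_source (Fin n → ℂ) p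
  have h4 : ∀ u : X → X → ℂ, IsSection n (power (canonical n X) l) u →
      IsSection n (power (tensor (power (canonical n X) (N + 1)) D) l)
        fun j q => u j.1 q * (t j.1 q ^ N * σ j.2 q ^ l) := fun u hu => by
    refine ⟨fun j => ?_, fun j j' q hq => ?_⟩
    · exact ((hu.1 j.1).mono inter_subset_left).mul
        ((((ht.1 j.1).mono inter_subset_left).pow N).mul (((hσ.1 j.2).mono inter_subset_right).pow l))
    · have a1 : u j.1 q = (canonical n X).g j.1 j'.1 q ^ l * u j'.1 q :=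
        hu.2 j.1 j'.1 q ⟨hq.1.1, hq.2.1⟩
      have a2 : t j.1 q = (canonical n X).g j.1 j'.1 q ^ l * t j'.1 q :=
        ht.2 j.1 j'.1 q ⟨hq.1.1, hq.2.1⟩
      change u j.1 q * (t j.1 q ^ N * σ j.2 q ^ l) =
        ((canonical n X).g j.1 j'.1 q ^ (N + 1) * D.g j.2 j'.2 q) ^ l *
          (u j'.1 q * (t j'.1 q ^ N * σ j'.2 q ^ l))
      rw [a1, a2, hσ.2 j.2 j'.2 q ⟨hq.1.2, hq.2.2⟩]
      ring
  refine le_antisymm (kappa_le _) (le_kappa hl ⟨_, _, h4 t ht, fun k => h4 _ (hs k), (p, i), p,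
    ⟨ha, hi⟩, mul_ne_zero h1 (mul_ne_zero (pow_ne_zero _ h1) (pow_ne_zero _ h3)), ?_⟩)
  have h5 : ∀ k, (fun q => s k p q * (t p q ^ N * σ i q ^ l) / (t p q * (t p q ^ N * σ i q ^ l)))
      =ᶠ[𝓝 p] fun q => s k p q / t p q := fun k => by
    filter_upwards [((ht.1 p p ha).mdifferentiableAt
      ((chartAt (Fin n → ℂ) p).open_source.mem_nhds ha)).continuousAt.eventually_ne h1,
      ((hσ.1 i p hi).mdifferentiableAt
      ((hD.isOpen i).mem_nhds hi)).continuousAt.eventually_ne h3] with q a1 a2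
    exact mul_div_mul_right _ _ (mul_ne_zero (pow_ne_zero _ a1) (pow_ne_zero _ a2))
  have h6 : (fun k => diff n (fun q => s k p q * (t p q ^ N * σ i q ^ l) /
      (t p q * (t p q ^ N * σ i q ^ l))) p) = fun k => diff n (fun q => s k p q / t p q) p :=
    funext fun k => funext fun v => by rw [diff, (h5 _).mfderiv_eq]; rfl
  exact h6 ▸ h2

end Vale.Agent.P281
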