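import Vale.Agent.P281.Stmt
import Vale.Agent.P271.BrP

/-! Jacobians of holomorphic maps in charts, pull-back of pluricanonical sections, the identity
theorem for sections. -/

open Set Filter Topology
open scoped Manifold ContDiff

noncomputable section

namespace Vale.Agent.P281

open Vale.Agent.P271 Vale.Agent.P271.Stmt

section

variable {n m k : ℕ} {X Y Z : Type} [TopologicalSpace X] [ChartedSpace (Fin n → ℂ) X]
  [TopologicalSpace Y] [ChartedSpace (Fin m → ℂ) Y] [TopologicalSpace Z]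
  [ChartedSpace (Fin k → ℂ) Z]

theorem kappa_le (L : Cocycle X) : kappa n L ≤ ((n : ℕ∞) : WithBot ℕ∞) := by
  refine iSup_le fun m => iSup_le fun r => iSup_le ?_
  rintro ⟨-, t, s, -, -, i, p, -, -, h⟩
  let A : Fin r → (Fin n → ℂ) →L[ℂ] ℂ := fun j =>
    mfderiv 𝓘(ℂ, Fin n → ℂ) 𝓘(ℂ, ℂ) (fun q => s j i q / t i q) p
  have h1 : LinearIndependent ℂ fun j => (A j).toLinearMap :=
    LinearIndependent.of_comp (LinearMap.ltoFun ℂ (Fin n → ℂ) ℂ ℂ) h
  have h2 := h1.fintype_card_le_finrank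
  rw [Fintype.card_fin, Module.finrank_linearMap_self, Module.finrank_fin_fun] at h2
  exact_mod_cast h2

theorem le_kappa {L : Cocycle X} {l r : ℕ} (hl : 0 < l) (h : HasRank n (power L l) r) :
    ((r : ℕ∞) : WithBot ℕ∞) ≤ kappa n L :=
  le_iSup_of_le l (le_iSup_of_le r (le_iSup_of_le ⟨hl, h⟩ le_rfl))

variable (n m) in
/-- The expression of `g` in the charts at `a` and `b`. -/
def loc (g : X → Y) (a : X) (b : Y) : (Fin n → ℂ) → Fin m → ℂ :=
  chartAt (Fin m → ℂ) b ∘ g ∘ (chartAt (Fin n → ℂ) a).symm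

theorem ev_chart {a p : X} (ha : p ∈ (chartAt (Fin n → ℂ) a).source) {P : X → Prop}
    (h : ∀ᶠ x in 𝓝 p, P x) :
    ∀ᶠ w in 𝓝 (chartAt (Fin n → ℂ) a p), P ((chartAt (Fin n → ℂ) a).symm w) := by
  have h4 := (chartAt (Fin n → ℂ) a).continuousAt_symm ((chartAt (Fin n → ℂ) a).map_source ha)
  rw [ContinuousAt, (chartAt (Fin n → ℂ) a).left_inv ha] at h4
  exact h4.eventually h

theorem loc_apply (g : X → Y) {a p : X} (b : Y) (ha : p ∈ (chartAt (Fin n → ℂ) a).source) :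
    loc n m g a b (chartAt (Fin n → ℂ) a p) = chartAt (Fin m → ℂ) b (g p) := by
  simp only [loc, Function.comp_apply, (chartAt (Fin n → ℂ) a).left_inv ha]

variable [IsManifold 𝓘(ℂ, Fin n → ℂ) ω X] [IsManifold 𝓘(ℂ, Fin m → ℂ) ω Y]

theorem loc_analytic {g : X → Y} (hg : MDifferentiable 𝓘(ℂ, Fin n → ℂ) 𝓘(ℂ, Fin m → ℂ) g)
    {a p : X} {b : Y} (ha : p ∈ (chartAt (Fin n → ℂ) a).source)
    (hb : g p ∈ (chartAt (Fin m → ℂ) b).source) :
    AnalyticAt ℂ (loc n m g a b) (chartAt (Fin n → ℂ) a p) := by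
  refine P278F.analyticAt_of_eventually ?_
  filter_upwards [ev_chart ha (hg.continuous.continuousAt.eventually
    ((chartAt (Fin m → ℂ) b).open_source.mem_nhds hb)), (chartAt (Fin n → ℂ) a).open_target.mem_nhds
    ((chartAt (Fin n → ℂ) a).map_source ha)] with w h1 h2
  rw [← mdifferentiableAt_iff_differentiableAt]
  exact (mdifferentiableAt_atlas (I := 𝓘(ℂ, Fin m → ℂ)) (chart_mem_atlas _ b) h1).comp w
    ((hg _).comp w (mdifferentiableAt_atlas_symm (I := 𝓘(ℂ, Fin n → ℂ)) (chart_mem_atlas _ a) h2))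

omit [IsManifold 𝓘(ℂ, Fin n → ℂ) ω X] [IsManifold 𝓘(ℂ, Fin m → ℂ) ω Y] in
theorem loc_self {g : X → Y} (hg : MDifferentiable 𝓘(ℂ, Fin n → ℂ) 𝓘(ℂ, Fin m → ℂ) g) (p : X) :
    fderiv ℂ (loc n m g p (g p)) (chartAt (Fin n → ℂ) p p) =
      mfderiv 𝓘(ℂ, Fin n → ℂ) 𝓘(ℂ, Fin m → ℂ) g p := by
  rw [(hg p).mfderiv]
  simp [writtenInExtChartAt, loc]

variable [IsManifold 𝓘(ℂ, Fin k → ℂ) ω Z]

theorem loc_comp {g : X → Y} (hg : MDifferentiable 𝓘(ℂ, Fin n → ℂ) 𝓘(ℂ, Fin m → ℂ) g)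
    {f : Y → Z} (hf : MDifferentiable 𝓘(ℂ, Fin m → ℂ) 𝓘(ℂ, Fin k → ℂ) f)
    {a p : X} {b : Y} {c : Z} (ha : p ∈ (chartAt (Fin n → ℂ) a).source)
    (hb : g p ∈ (chartAt (Fin m → ℂ) b).source) (hc : f (g p) ∈ (chartAt (Fin k → ℂ) c).source) :
    fderiv ℂ (loc n k (f ∘ g) a c) (chartAt (Fin n → ℂ) a p) =
      (fderiv ℂ (loc m k f b c) (chartAt (Fin m → ℂ) b (g p))).comp
        (fderiv ℂ (loc n m g a b) (chartAt (Fin n → ℂ) a p)) := by
  have h1 := (loc_analytic hg ha hb).differentiableAt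
  have h2 := (loc_analytic hf hb hc).differentiableAt
  rw [← loc_apply g b ha] at h2 ⊢
  rw [← fderiv_comp _ h2 h1]
  refine EventuallyEq.fderiv_eq ?_
  filter_upwards [ev_chart ha (hg.continuous.continuousAt.eventually
    ((chartAt (Fin m → ℂ) b).open_source.mem_nhds hb))] with w hw
  simp only [loc, Function.comp_apply]
  rw [(chartAt (Fin m → ℂ) b).left_inv hw]

end

variable {n : ℕ} {X Z : Type} [TopologicalSpace X] [ChartedSpace (Fin n → ℂ) X]
  [TopologicalSpace Z] [ChartedSpace (Fin n → ℂ) Z]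

variable (n) in
/-- The Jacobian determinant of `g` in the charts at `a` and `b`. -/
def jac (g : X → Z) (a : X) (b : Z) (p : X) : ℂ :=
  (fderiv ℂ (loc n n g a b) (chartAt (Fin n → ℂ) a p)).det

theorem det_comp (A B : (Fin n → ℂ) →L[ℂ] Fin n → ℂ) : (A.comp B).det = A.det * B.det := by
  unfold ContinuousLinearMap.det
  rw [← LinearMap.det_comp]
  rfl

variable [IsManifold 𝓘(ℂ, Fin n → ℂ) ω X] [IsManifold 𝓘(ℂ, Fin n → ℂ) ω Z] {g : X → Z}

theorem jac_left (hg : MDifferentiable 𝓘(ℂ, Fin n → ℂ) 𝓘(ℂ, Fin n → ℂ) g) {a a' p : X} {b : Z}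
    (ha : p ∈ (chartAt (Fin n → ℂ) a).source) (ha' : p ∈ (chartAt (Fin n → ℂ) a').source)
    (hb : g p ∈ (chartAt (Fin n → ℂ) b).source) :
    jac n g a b p = (canonical n X).g a a' p * jac n g a' b p := by
  have h := congrArg ContinuousLinearMap.det (loc_comp mdifferentiable_id hg ha ha' hb)
  rw [det_comp, mul_comm] at h
  exact h

theorem jac_right (hg : MDifferentiable 𝓘(ℂ, Fin n → ℂ) 𝓘(ℂ, Fin n → ℂ) g) {a p : X} {b b' : Z}
    (ha : p ∈ (chartAt (Fin n → ℂ) a).source) (hb : g p ∈ (chartAt (Fin n → ℂ) b).source)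
    (hb' : g p ∈ (chartAt (Fin n → ℂ) b').source) :
    jac n g a b' p = (canonical n Z).g b b' (g p) * jac n g a b p := by
  have h := congrArg ContinuousLinearMap.det (loc_comp hg mdifferentiable_id ha hb hb')
  rw [det_comp] at h
  exact h

theorem jac_analytic (hg : MDifferentiable 𝓘(ℂ, Fin n → ℂ) 𝓘(ℂ, Fin n → ℂ) g) {a p : X} {b : Z}
    (ha : p ∈ (chartAt (Fin n → ℂ) a).source) (hb : g p ∈ (chartAt (Fin n → ℂ) b).source) :
    AnalyticAt ℂ (jac n g a b ∘ (chartAt (Fin n → ℂ) a).symm) (chartAt (Fin n → ℂ) a p) := by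
  have h2 : AnalyticOnNhd ℂ (loc n n g a b) {chartAt (Fin n → ℂ) a p} := by
    intro z hz
    rw [mem_singleton_iff.1 hz]
    exact loc_analytic hg ha hb
  refine (analyticOnNhd_det_fderiv h2 _ (mem_singleton _)).congr ?_
  filter_upwards [(chartAt (Fin n → ℂ) a).open_target.mem_nhds
    ((chartAt (Fin n → ℂ) a).map_source ha)] with w hw
  simp only [jac, Function.comp_apply, (chartAt (Fin n → ℂ) a).right_inv hw]

variable (n g) in
/-- The pull-back of a pluricanonical section. -/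
def pull (l : ℕ) (s : Z → Z → ℂ) (a p : X) : ℂ := s (g p) (g p) * jac n g a (g p) p ^ l

theorem pull_eq (hg : MDifferentiable 𝓘(ℂ, Fin n → ℂ) 𝓘(ℂ, Fin n → ℂ) g) {l : ℕ} {s : Z → Z → ℂ}
    (hs : IsSection n (power (canonical n Z) l) s) {a p : X} {b : Z}
    (ha : p ∈ (chartAt (Fin n → ℂ) a).source) (hb : g p ∈ (chartAt (Fin n → ℂ) b).source) :
    pull n g l s a p = s b (g p) * jac n g a b p ^ l := by
  have h1 : s b (g p) = (canonical n Z).g b (g p) (g p) ^ l * s (g p) (g p) :=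
    hs.2 b (g p) (g p) ⟨hb, mem_chart_source _ _⟩
  rw [pull, jac_right hg ha hb (mem_chart_source _ _), h1, mul_pow]
  ring

theorem pull_section (hg : MDifferentiable 𝓘(ℂ, Fin n → ℂ) 𝓘(ℂ, Fin n → ℂ) g) {l : ℕ}
    {s : Z → Z → ℂ} (hs : IsSection n (power (canonical n Z) l) s) :
    IsSection n (power (canonical n X) l) (pull (X := X) n g l s) := by
  refine ⟨fun a : X => ?_, fun (a a' : X) p hp => ?_⟩
  · refine hol_of_chart fun p (ha : p ∈ (chartAt (Fin n → ℂ) a).source) => ⟨a, ha, ?_⟩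
    have hb := mem_chart_source (Fin n → ℂ) (g p)
    have h1 := analyticAt_chart (chartAt (Fin n → ℂ) (g p)).open_source (hs.1 (g p)) (g p) hb hb
    rw [← loc_apply g (g p) ha] at h1
    refine ((h1.comp (loc_analytic hg ha hb)).mul ((jac_analytic hg ha hb).pow l)).congr ?_
    filter_upwards [ev_chart ha (hg.continuous.continuousAt.eventually
      ((chartAt (Fin n → ℂ) (g p)).open_source.mem_nhds hb)),
      ev_chart ha ((chartAt (Fin n → ℂ) a).open_source.mem_nhds ha)] with w h2 h3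
    simp only [Function.comp_apply, Pi.mul_apply, Pi.pow_apply]
    rw [pull_eq hg hs h3 h2]
    simp only [loc, Function.comp_apply]
    rw [(chartAt (Fin n → ℂ) (g p)).left_inv h2]
  · change pull n g l s a p = (canonical n X).g a a' p ^ l * pull n g l s a' p
    rw [pull, pull, jac_left hg hp.1 hp.2 (mem_chart_source _ _), mul_pow]
    ring

omit [TopologicalSpace Z] [ChartedSpace (Fin n → ℂ) Z] [IsManifold 𝓘(ℂ, Fin n → ℂ) ω Z] in
/-- The identity theorem. -/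
theorem dense_ne [ConnectedSpace X] {D : Cocycle X} (hD : IsLineBundle n D) {σ : D.ι → X → ℂ}
    (hσ : IsSection n D σ) (h0 : ∃ i, ∃ p ∈ D.U i, σ i p ≠ 0) :
    Dense {p | ∃ i, p ∈ D.U i ∧ σ i p ≠ 0} := by
  rw [← compl_compl {p | ∃ i, p ∈ D.U i ∧ σ i p ≠ 0}, ← interior_eq_empty_iff_dense_compl]
  set W := interior {p | ∃ i, p ∈ D.U i ∧ σ i p ≠ 0}ᶜ with hW
  have h1 : IsClopen W := by
    refine ⟨isClosed_of_closure_subset fun p hp => ?_, isOpen_interior⟩
    obtain ⟨i, hi⟩ := hD.cover p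
    have ha := mem_chart_source (Fin n → ℂ) p
    obtain ⟨r, hr, hB⟩ := Metric.eventually_nhds_iff_ball.1 ((ev_chart ha
      ((hD.isOpen i).mem_nhds hi)).and ((chartAt (Fin n → ℂ) p).open_target.mem_nhds
      ((chartAt (Fin n → ℂ) p).map_source ha)))
    have hO : {x | x ∈ (chartAt (Fin n → ℂ) p).source ∧ chartAt (Fin n → ℂ) p x ∈
        Metric.ball (chartAt (Fin n → ℂ) p p) r} ∈ 𝓝 p :=
      inter_mem ((chartAt (Fin n → ℂ) p).open_source.mem_nhds ha)
        (((chartAt (Fin n → ℂ) p).continuousAt ha).eventually (Metric.ball_mem_nhds _ hr))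
    have h2 : AnalyticOnNhd ℂ (σ i ∘ (chartAt (Fin n → ℂ) p).symm)
        (Metric.ball (chartAt (Fin n → ℂ) p p) r) := fun w hw => by
      have := analyticAt_chart (hD.isOpen i) (hσ.1 i) p (hB w hw).1
        ((chartAt (Fin n → ℂ) p).map_target (hB w hw).2)
      rwa [(chartAt (Fin n → ℂ) p).right_inv (hB w hw).2] at this
    obtain ⟨x, hx, hxW⟩ := mem_closure_iff_nhds.1 hp _ hO
    have h3 : σ i ∘ (chartAt (Fin n → ℂ) p).symm =ᶠ[𝓝 (chartAt (Fin n → ℂ) p x)] 0 := by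
      filter_upwards [ev_chart hx.1 (mem_interior_iff_mem_nhds.1 hxW),
        Metric.isOpen_ball.mem_nhds hx.2] with w h4 h5
      exact by_contra fun h6 => h4 ⟨i, (hB w h5).1, h6⟩
    have h4 := h2.eqOn_zero_of_preconnected_of_eventuallyEq_zero
      (convex_ball _ _).isPreconnected hx.2 h3
    refine mem_interior_iff_mem_nhds.2 ?_
    filter_upwards [hO, (hD.isOpen i).mem_nhds hi] with y hy hy'
    rintro ⟨j, hj, h5⟩
    have h6 := h4 hy.2
    rw [Function.comp_apply, (chartAt (Fin n → ℂ) p).left_inv hy.1] at h6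
    rw [hσ.2 j i y ⟨hj, hy'⟩, h6] at h5
    exact h5 (mul_zero _)
  rcases isClopen_iff.1 h1 with h2 | h2
  · exact h2
  · obtain ⟨i, p, hp, h3⟩ := h0
    exact absurd ⟨i, hp, h3⟩ (interior_subset (h2 ▸ mem_univ p : p ∈ W))

end Vale.Agent.P281
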