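import Mathlib

/-! Compact complex manifolds and holomorphic maps. -/

open scoped Manifold ContDiff

noncomputable section

namespace Vale.Agent.P281

variable (V W : Type) [NormedAddCommGroup V] [NormedSpace ℂ V] [NormedAddCommGroup W]
  [NormedSpace ℂ W]

/-- `X` is a compact connected complex manifold modelled on `V`. -/
def IsCM (X : Type) [TopologicalSpace X] [ChartedSpace V X] : Prop :=
  T2Space X ∧ CompactSpace X ∧ ConnectedSpace X ∧ IsManifold 𝓘(ℂ, V) ω X

/-- Every holomorphic map from `ℂ` to `X` is constant. -/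
def Brody (X : Type) [TopologicalSpace X] [ChartedSpace V X] : Prop :=
  ∀ c : ℂ → X, MDifferentiable 𝓘(ℂ, ℂ) 𝓘(ℂ, V) c → ∃ a, ∀ z, c z = a

variable {X Y : Type} [TopologicalSpace X] [ChartedSpace V X] [TopologicalSpace Y]
  [ChartedSpace W Y]

/-- The map is holomorphic. -/
def HolMap (f : X → Y) : Prop := MDifferentiable 𝓘(ℂ, V) 𝓘(ℂ, W) f

/-- The differential at `x` is injective. -/
def ImmAt (f : X → Y) (x : X) : Prop := Function.Injective (mfderiv 𝓘(ℂ, V) 𝓘(ℂ, W) f x)

/-- The differential at `x` is surjective. -/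
def SubmAt (f : X → Y) (x : X) : Prop := Function.Surjective (mfderiv 𝓘(ℂ, V) 𝓘(ℂ, W) f x)

end Vale.Agent.P281
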