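import Vale.Agent.P271.Stmt

/-! The Iitaka dimension of a holomorphic line bundle. -/

noncomputable section

namespace Vale.Agent.P281

open Vale.Agent.P271.Stmt

variable (n : ℕ) {X : Type} [TopologicalSpace X] [ChartedSpace (Fin n → ℂ) X]

/-- There are global sections `t, s 0, ..., s (r-1)` of `L` and a point `p` with `t p ≠ 0` at
which the differentials of the functions `s k / t` are linearly independent: the meromorphic map
given by the sections of `L` has rank at least `r` at some point. -/
def HasRank (L : Cocycle X) (r : ℕ) : Prop :=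
  ∃ (t : L.ι → X → ℂ) (s : Fin r → L.ι → X → ℂ), IsSection n L t ∧ (∀ k, IsSection n L (s k)) ∧
    ∃ i, ∃ p ∈ L.U i, t i p ≠ 0 ∧
      LinearIndependent ℂ fun k => diff n (fun q => s k i q / t i q) p

/-- The Iitaka dimension: the largest rank (the dimension of the image) of the maps given by the
sections of the powers `L ^ m`, `m > 0`, and `⊥ = -∞` when these powers have no nonzero
section. -/
def kappa (L : Cocycle X) : WithBot ℕ∞ :=
  ⨆ (m : ℕ) (r : ℕ) (_ : 0 < m ∧ HasRank n (power L m) r), ((r : ℕ∞) : WithBot ℕ∞)

end Vale.Agent.P281
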